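import Vale.Agent.P054.H25P.Defs

/-! # P054.SmallBlocks: pigeonhole over the blocks outside `S` -/

set_option linter.all false
set_option autoImplicit false

open Finset

namespace Vale.Agent.P054P

open scoped Classical in
/-- pigeonhole over the blocks outside `S` -/
theorem exists_fibre {d : ℕ} (β : Fin d → ℕ) (P : Finset (EuclideanSpace ℝ (Fin d)))
    (hP : P.Nonempty) (S : Finset ℕ) :
    ∃ F ⊆ P, F.Nonempty ∧ (∀ p ∈ F, ∀ q ∈ F, ∀ i, β i ∉ S → p i = q i) ∧
      (P.card : ℝ) ≤ F.card * ∏ j ∈ (univ.image β) \ S, (bn β P j : ℝ) := by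
  obtain ⟨J, hJ⟩ : ∃ J : Finset ℕ, J = (univ.image β) \ S := ⟨_, rfl⟩
  rw [← hJ]
  obtain ⟨g, hg⟩ : ∃ g : EuclideanSpace ℝ (Fin d) → (∀ j ∈ J, ({i : Fin d // β i = j} → ℝ)),
      g = fun p j _ => blk β j p := ⟨_, rfl⟩
  have hsub : P.image g ⊆ J.pi (fun j => P.image (blk β j)) := by
    intro y hy
    obtain ⟨p, hp, rfl⟩ := mem_image.mp hy
    rw [mem_pi, hg]
    intro j hj
    exact mem_image_of_mem _ hp
  have hcard : ((P.image g).card : ℝ) ≤ ∏ j ∈ J, (bn β P j : ℝ) := by
    have h1 := card_le_card hsub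
    rw [card_pi] at h1
    have h2 : ((P.image g).card : ℝ) ≤ ((∏ j ∈ J, (P.image (blk β j)).card : ℕ) : ℝ) := by
      exact_mod_cast h1
    refine h2.trans (le_of_eq ?_)
    push_cast
    refine prod_congr rfl (fun j _ => ?_)
    unfold bn
    rfl
  obtain ⟨y, hy, hmax⟩ := exists_max_image (P.image g)
    (fun y => (P.filter (fun p => g p = y)).card) (hP.image g)
  refine ⟨P.filter (fun p => g p = y), filter_subset _ _, ?_, ?_, ?_⟩
  · obtain ⟨p, hp, hpy⟩ := mem_image.mp hy
    exact ⟨p, mem_filter.mpr ⟨hp, hpy⟩⟩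
  · intro p hp q hq i hi
    have h1 := (mem_filter.mp hp).2
    have h2 := (mem_filter.mp hq).2
    have h3 : g p = g q := h1.trans h2.symm
    have hiJ : β i ∈ J := by
      rw [hJ, mem_sdiff]
      exact ⟨mem_image_of_mem _ (mem_univ i), hi⟩
    rw [hg] at h3
    have h4 := congrFun (congrFun h3 (β i)) hiJ
    exact congrFun h4 ⟨i, rfl⟩
  · have h1 := card_eq_sum_card_image g P
    have h2 : (P.card : ℝ) ≤ (P.image g).card * (P.filter (fun p => g p = y)).card := by
      have h3 : P.card ≤ (P.image g).card * (P.filter (fun p => g p = y)).card := by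
        calc P.card = ∑ b ∈ P.image g, (P.filter (fun p => g p = b)).card := h1
          _ ≤ ∑ b ∈ P.image g, (P.filter (fun p => g p = y)).card := sum_le_sum hmax
          _ = _ := by rw [sum_const, smul_eq_mul]
      exact_mod_cast h3
    calc (P.card : ℝ) ≤ (P.image g).card * (P.filter (fun p => g p = y)).card := h2
      _ ≤ (∏ j ∈ J, (bn β P j : ℝ)) * (P.filter (fun p => g p = y)).card := by gcongr
      _ = _ := mul_comm _ _

end Vale.Agent.P054P
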