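import Vale.Agent.P054.H25P.Defs
import Mathlib.Combinatorics.Pigeonhole

/-! # P054.SmallBlocks (A): pigeonhole over the blocks outside `S` -/

set_option linter.all false
set_option autoImplicit false

open Finset

namespace Vale.Agent.P054P

/-- (A) pigeonhole over the blocks outside `S` -/
theorem exists_fibre {d : ℕ} (β : Fin d → ℕ) (P : Finset (EuclideanSpace ℝ (Fin d)))
    (hP : P.Nonempty) (S : Finset ℕ) :
    ∃ F ⊆ P, F.Nonempty ∧ (∀ p ∈ F, ∀ q ∈ F, ∀ i, β i ∉ S → p i = q i) ∧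
      (P.card : ℝ) ≤ F.card * ∏ j ∈ (univ.image β) \ S, (bn β P j : ℝ) := by
  classical
  set J : Finset ℕ := (univ.image β) \ S with hJ
  let g : EuclideanSpace ℝ (Fin d) → (∀ j ∈ J, ({i : Fin d // β i = j} → ℝ)) :=
    fun p j _ => blk β j p
  set T := J.pi (fun j => P.image (blk β j)) with hT
  have hmaps : ∀ p ∈ P, g p ∈ T := by
    intro p hp
    rw [hT, Finset.mem_pi]
    intro j hj
    exact Finset.mem_image_of_mem _ hp
  obtain ⟨p₀, hp₀⟩ := hP
  have hTne : T.Nonempty := ⟨g p₀, hmaps p₀ hp₀⟩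
  have hTpos : (0:ℝ) < T.card := by exact_mod_cast hTne.card_pos
  have hPpos : (0:ℝ) < P.card := by
    have : 0 < P.card := Finset.card_pos.mpr ⟨p₀, hp₀⟩
    exact_mod_cast this
  obtain ⟨y, hy, hfib⟩ := Finset.exists_le_card_fiber_of_nsmul_le_card_of_maps_to
    (b := (P.card : ℝ) / T.card) hmaps hTne (by
      rw [nsmul_eq_mul]
      rw [mul_div_cancel₀ _ hTpos.ne'])
  refine ⟨P.filter (fun x => g x = y), Finset.filter_subset _ _, ?_, ?_, ?_⟩
  · rw [← Finset.card_pos]
    have h1 : (0:ℝ) < ((P.filter (fun x => g x = y)).card : ℝ) :=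
      lt_of_lt_of_le (div_pos hPpos hTpos) hfib
    exact_mod_cast h1
  · intro p hp q hq i hi
    have hgp : g p = y := (Finset.mem_filter.mp hp).2
    have hgq : g q = y := (Finset.mem_filter.mp hq).2
    have hmem : β i ∈ J := by
      rw [hJ, Finset.mem_sdiff]
      exact ⟨Finset.mem_image_of_mem _ (Finset.mem_univ i), hi⟩
    have h1 : g p (β i) hmem = g q (β i) hmem := by rw [hgp, hgq]
    exact congrFun h1 ⟨i, rfl⟩
  · have hcard : (T.card : ℝ) = ∏ j ∈ J, (bn β P j : ℝ) := by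
      rw [hT, Finset.card_pi]
      push_cast
      rfl
    rw [← hcard]
    rwa [div_le_iff₀ hTpos] at hfib

end Vale.Agent.P054P
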