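import Vale.Agent.P054.H25P.Defs
import Mathlib.Analysis.SpecialFunctions.Pow.Real

/-! # P054.SmallBlocks: the product over the blocks, and the last step -/

set_option linter.all false
set_option autoImplicit false

open Finset

namespace Vale.Agent.P054P

/-- (B) the product over the blocks -/
theorem prod_blocks {d : ℕ} (β : Fin d → ℕ) (a : ℕ → ℝ) (X T : ℝ) (hX : 1 ≤ X) (hT : 1 ≤ T)
    (ha : ∀ j, 1 ≤ a j) (hd : 2 ≤ d)
    (h1 : ∀ j ∈ univ.image β, 2 ≤ (univ.filter (fun i => β i = j)).card →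
      a j ≤ X * T ^ (((univ.filter (fun i => β i = j)).card : ℝ) / 2))
    (h2 : ∀ i ∈ univ.image β, ∀ j ∈ univ.image β, i ≠ j →
      a i * a j ≤ X ^ 2 * T ^ ((((univ.filter (fun l => β l = i)).card : ℝ) +
        (univ.filter (fun l => β l = j)).card) / 2)) :
    ∏ j ∈ univ.image β, a j ≤ X ^ d * T ^ ((d:ℝ) / 2) := by
  have hsum : ∑ j ∈ univ.image β, (univ.filter (fun i => β i = j)).card = d := by
    have := Finset.card_eq_sum_card_image β (univ : Finset (Fin d))
    rw [Finset.card_univ, Fintype.card_fin] at this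
    exact this.symm
  have hcard : (univ.image β).card ≤ d := by
    have := Finset.card_image_le (s := (univ : Finset (Fin d))) (f := β)
    rwa [Finset.card_univ, Fintype.card_fin] at this
  have hT0 : 0 < T := by linarith
  have hX0 : 0 < X := by linarith
  obtain ⟨w, hwdef⟩ : ∃ w : ℕ → ℝ, w = fun j =>
    X * T ^ (((univ.filter (fun i => β i = j)).card : ℝ) / 2) := ⟨_, rfl⟩
  have hw : ∀ j, 0 < w j := fun j => by
    rw [hwdef]; exact mul_pos hX0 (Real.rpow_pos_of_pos hT0 _)
  have hprodw : ∏ j ∈ univ.image β, w j ≤ X ^ d * T ^ ((d:ℝ)/2) := by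
    have h3 : ∏ j ∈ univ.image β, w j = X ^ (univ.image β).card * T ^ ((d:ℝ)/2) := by
      rw [hwdef]
      rw [Finset.prod_mul_distrib, Finset.prod_const, ← Real.rpow_sum_of_pos hT0]
      congr 2
      rw [← Finset.sum_div, ← Nat.cast_sum, hsum]
    rw [h3]
    exact mul_le_mul_of_nonneg_right (pow_le_pow_right₀ hX hcard) (Real.rpow_nonneg hT0.le _)
  refine le_trans ?_ hprodw
  by_cases hall : ∀ j ∈ univ.image β, a j ≤ w j
  · exact Finset.prod_le_prod (fun j _ => by linarith [ha j]) hall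
  · push Not at hall
    obtain ⟨i, hi, hlt⟩ := hall
    have h2' : ∀ k ∈ univ.image β, k ≠ i → a i * a k ≤ w i * w k := by
      intro k hk hki
      refine (h2 i hi k hk (Ne.symm hki)).trans (le_of_eq ?_)
      rw [hwdef]
      simp only []
      rw [add_div, Real.rpow_add hT0]; ring
    have hle : ∀ k ∈ univ.image β, k ≠ i → a k ≤ w k := by
      intro k hk hki
      by_contra hcon
      push Not at hcon
      have := mul_lt_mul'' hlt hcon (hw i).le (hw k).le
      exact absurd (h2' k hk hki) (not_le.mpr this)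
    have hDi : (univ.filter (fun l => β l = i)).card ≤ 1 := by
      by_contra h
      push Not at h
      have h4 := h1 i hi h
      rw [hwdef] at hlt
      exact absurd h4 (not_le.mpr hlt)
    obtain ⟨j, hj, hji⟩ : ∃ j ∈ univ.image β, j ≠ i := by
      by_contra hno
      push Not at hno
      have hJ : univ.image β = {i} := by
        apply Finset.eq_singleton_iff_unique_mem.mpr
        exact ⟨hi, hno⟩
      rw [hJ, Finset.sum_singleton] at hsum
      omega
    have hj' : j ∈ (univ.image β).erase i := Finset.mem_erase.mpr ⟨hji, hj⟩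
    rw [← Finset.mul_prod_erase (univ.image β) a hi,
      ← Finset.mul_prod_erase ((univ.image β).erase i) a hj',
      ← Finset.mul_prod_erase (univ.image β) w hi,
      ← Finset.mul_prod_erase ((univ.image β).erase i) w hj', ← mul_assoc, ← mul_assoc]
    apply mul_le_mul (h2' j hj hji)
    · apply Finset.prod_le_prod
      · intro k _; linarith [ha k]
      · intro k hk
        have hk2 := Finset.mem_of_mem_erase hk
        exact hle k (Finset.mem_of_mem_erase hk2) (Finset.ne_of_mem_erase hk2)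
    · exact Finset.prod_nonneg (fun k _ => by linarith [ha k])
    · exact (mul_pos (hw i) (hw j)).le

/-- (D) the last step; `M` = product of the block numbers, `K = M / n` -/
theorem last_step (d : ℕ) (hd : 2 ≤ d) (ε : ℝ) (hε : 0 < ε) :
    ∃ η : ℝ, 0 < η ∧ ∀ C : ℝ, 1 ≤ C → ∃ c : ℝ, 0 < c ∧ ∀ n M T : ℝ, 1 ≤ n → n ≤ M → 1 ≤ T →
      M ≤ (C * (M / n) ^ 2 * T ^ η) ^ d * T ^ ((d:ℝ) / 2) →
      c * (n / M) ^ 4 * n ^ (2 / (d:ℝ) - ε) ≤ T := by
  have hd0 : (0:ℝ) < d := by
    have : 0 < d := by omega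
    exact_mod_cast this
  have hη : 0 < ε * d / 4 := by positivity
  refine ⟨ε * d / 4, hη, fun C hC => ?_⟩
  generalize hηd : ε * d / 4 = η at hη ⊢
  obtain ⟨s, hsd⟩ : ∃ s : ℝ, s = η * d + d / 2 := ⟨_, rfl⟩
  have hs : 0 < s := by rw [hsd]; positivity
  have hinv : 2/(d:ℝ) - ε ≤ 1/s := by
    rw [le_div_iff₀ hs]
    have h1 : (2/(d:ℝ) - ε) * s = 1 - (d*ε)^2/4 := by
      rw [hsd, ← hηd]; field_simp; ring
    rw [h1]
    have := sq_nonneg ((d:ℝ)*ε)
    linarith
  have hinv4 : (2*d:ℝ) * (1/s) ≤ 4 := by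
    rw [mul_one_div, div_le_iff₀ hs, hsd]
    nlinarith [mul_pos hη hd0]
  have hC0 : 0 < C := by linarith
  have hCd : 0 < (C^d) ^ (1/s) := Real.rpow_pos_of_pos (pow_pos hC0 d) _
  refine ⟨((C^d) ^ (1/s))⁻¹, inv_pos.mpr hCd, ?_⟩
  intro n M T hn hnM hT h
  have hn0 : 0 < n := by linarith
  have hM0 : 0 < M := by linarith
  have hT0 : 0 < T := by linarith
  have hK1 : 1 ≤ M / n := by rw [le_div_iff₀ hn0]; linarith
  generalize hK : M / n = K at h hK1
  have hK0 : 0 < K := by linarith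
  have hnM' : n / M = K⁻¹ := by rw [← hK, inv_div]
  rw [hnM']
  have h' : M ≤ C^d * K^(2*d) * T^s := by
    refine h.trans (le_of_eq ?_)
    rw [hsd, Real.rpow_add hT0, Real.rpow_mul hT0.le, Real.rpow_natCast, mul_pow, mul_pow,
      ← pow_mul]
    ring
  have h3 : M^(1/s) ≤ (C^d)^(1/s) * (K^(2*d))^(1/s) * T := by
    have h4 := Real.rpow_le_rpow hM0.le h' (one_div_pos.mpr hs).le
    rw [Real.mul_rpow (by positivity) (by positivity), Real.mul_rpow (by positivity) (by positivity),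
      ← Real.rpow_mul hT0.le, mul_one_div, div_self hs.ne', Real.rpow_one] at h4
    exact h4
  have h4 : (K^(2*d))^(1/s) ≤ K^4 := by
    rw [← Real.rpow_natCast K (2*d), ← Real.rpow_mul hK0.le, ← Real.rpow_natCast K 4]
    apply Real.rpow_le_rpow_of_exponent_le hK1
    push_cast
    exact hinv4
  have h5 : n^(2/(d:ℝ)-ε) ≤ M^(1/s) :=
    (Real.rpow_le_rpow_of_exponent_le hn hinv).trans
      (Real.rpow_le_rpow hn0.le hnM (one_div_pos.mpr hs).le)
  have h6 : n^(2/(d:ℝ)-ε) ≤ (C^d)^(1/s) * K^4 * T := by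
    refine h5.trans (h3.trans ?_)
    apply mul_le_mul_of_nonneg_right _ hT0.le
    exact mul_le_mul_of_nonneg_left h4 hCd.le
  have hK4 : 0 < K^4 := by positivity
  calc ((C^d) ^ (1/s))⁻¹ * K⁻¹ ^ 4 * n ^ (2 / (d:ℝ) - ε)
      ≤ ((C^d) ^ (1/s))⁻¹ * K⁻¹ ^ 4 * ((C^d)^(1/s) * K^4 * T) :=
        mul_le_mul_of_nonneg_left h6 (by positivity)
    _ = T := by
        rw [inv_pow]
        field_simp

end Vale.Agent.P054P
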