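import Vale.Agent.P054.MathlibUsed
import Vale.Agent.P054.H25.BaseN

/-! # P054.SmallBlocks: a set of reals times a set of dimension `k` -/

set_option linter.all false
set_option autoImplicit false

open Finset Vale.Agent.P054

namespace Vale.Agent.P054P

/-- Szemeredi-Trotter for the values `(x - y) ^ 2 + δ` -/
theorem st_core (A S Δ : Finset ℝ) (A1 A2 : ℝ → Finset ℝ) (κ Λ : ℝ)
    (h1 : ∀ δ ∈ Δ, A1 δ ⊆ A) (h2 : ∀ δ ∈ Δ, A2 δ ⊆ A)
    (hk1 : ∀ δ ∈ Δ, κ ≤ (A1 δ).card) (hk2 : ∀ δ ∈ Δ, κ ≤ (A2 δ).card)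
    (hS : ∀ δ ∈ Δ, ∀ x ∈ A1 δ, ∀ y ∈ A2 δ, (x - y) ^ 2 + δ ∈ S)
    (hΛ : 6 * Real.log ((A.card : ℝ) * Δ.card + 1) + 1 ≤ Λ) (hκ : 64 * Λ ≤ κ) (hΛ0 : 0 < Λ) :
    κ * Δ.card ≤ 2 ^ 12 * Λ ^ 2 * (((A.card : ℝ) * S.card) ^ 2 / κ ^ 3) +
      2 * ((A.card : ℝ) * S.card / κ) := by
  classical
  obtain ⟨Q, hQ⟩ : ∃ Q : Finset (ℝ × ℝ), Q = (A ×ˢ S).image (fun z => (z.1, z.2 - z.1 ^ 2)) :=
    ⟨_, rfl⟩
  obtain ⟨L, hL⟩ : ∃ L : Finset (ℝ × ℝ),
      L = (Δ.sigma A2).image (fun z => (-2 * z.2, z.2 ^ 2 + z.1)) := ⟨_, rfl⟩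
  have hLc : L.card = ∑ δ ∈ Δ, (A2 δ).card := by
    rw [hL, card_image_of_injective, card_sigma]
    rintro ⟨a, b⟩ ⟨c, d⟩ h
    simp only [Prod.mk.injEq] at h
    obtain ⟨h3, h4⟩ := h
    have h5 : b = d := by linarith only [h3]
    subst h5
    have h6 : a = c := by linarith only [h4]
    subst h6
    rfl
  have hL1 : κ * Δ.card ≤ L.card := by
    rw [hLc]
    push_cast
    calc κ * (Δ.card : ℝ) = ∑ δ ∈ Δ, κ := by rw [sum_const, nsmul_eq_mul]; ring
      _ ≤ _ := sum_le_sum hk2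
  have hL2 : (L.card : ℝ) ≤ (A.card : ℝ) * Δ.card := by
    rw [hLc]
    push_cast
    calc ∑ δ ∈ Δ, ((A2 δ).card : ℝ) ≤ ∑ δ ∈ Δ, (A.card : ℝ) :=
          sum_le_sum (fun δ hδ => by exact_mod_cast card_le_card (h2 δ hδ))
      _ = _ := by rw [sum_const, nsmul_eq_mul]; ring
  have hQc : (Q.card : ℝ) ≤ (A.card : ℝ) * S.card := by
    have := card_image_le (s := A ×ˢ S) (f := fun z : ℝ × ℝ => (z.1, z.2 - z.1 ^ 2))
    rw [card_product] at this
    rw [hQ]
    exact_mod_cast this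
  refine hL1.trans ?_
  have := planarST Q L (fun _ => 1) 1 ((A.card : ℝ) * S.card) κ Λ (fun _ _ => zero_le_one)
    (fun _ _ => le_rfl) one_pos (by rw [sum_const, nsmul_eq_mul, mul_one]; exact hQc)
    (by
      intro l hl
      rw [hL, mem_image] at hl
      obtain ⟨⟨δ, y⟩, hz, rfl⟩ := hl
      rw [mem_sigma] at hz
      obtain ⟨hδ, hy⟩ := hz
      simp only at hδ hy
      unfold wt
      rw [sum_const, nsmul_eq_mul, mul_one]
      refine (hk1 δ hδ).trans ?_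
      have hinj : Set.InjOn (fun x : ℝ => ((x, (x - y) ^ 2 + δ - x ^ 2) : ℝ × ℝ))
          (A1 δ : Set ℝ) := by
        intro a _ b _ h
        exact (Prod.mk.injEq _ _ _ _ ▸ h).1
      have h3 := card_le_card_of_injOn (s := A1 δ)
        (t := Q.filter (fun z => Onl (-2 * y, y ^ 2 + δ) z))
        (fun x : ℝ => ((x, (x - y) ^ 2 + δ - x ^ 2) : ℝ × ℝ))
        (by
          intro x hx
          rw [mem_coe, mem_filter, hQ, mem_image]
          refine ⟨⟨(x, (x - y) ^ 2 + δ), mem_product.mpr ⟨h1 δ hδ hx, hS δ hδ x hx y hy⟩, rfl⟩, ?_⟩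
          unfold Onl
          ring) hinj
      exact_mod_cast h3)
    (by
      refine le_trans ?_ hΛ
      have h3 : Real.log ((L.card : ℝ) + 1) ≤ Real.log ((A.card : ℝ) * Δ.card + 1) :=
        Real.log_le_log (by positivity) (by linarith only [hL2])
      linarith only [h3])
    (by linarith only [hκ])
  simpa using this

open scoped Classical in
/-- the fibre of `F` over `b` -/
noncomputable def fib {β : Type} (A : Finset ℝ) (F : Finset (ℝ × β)) (b : β) : Finset ℝ :=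
  A.filter (fun x => (x, b) ∈ F)

open scoped Classical in
theorem mem_fib {β : Type} {A : Finset ℝ} {F : Finset (ℝ × β)} {b : β} {x : ℝ} :
    x ∈ fib A F b ↔ x ∈ A ∧ (x, b) ∈ F :=
  Finset.mem_filter

open scoped Classical in
/-- rich fibres -/
theorem rich_fibres {β : Type} (A : Finset ℝ) (B : Finset β) (F : Finset (ℝ × β)) (K : ℝ)
    (hK : 0 < K) (hA : A.Nonempty) (hF : F ⊆ A ×ˢ B)
    (hc : (A.card : ℝ) * B.card ≤ K * F.card) :
    ∃ a ∈ A, ∃ B' ⊆ B, (∀ b ∈ B', (a, b) ∈ F ∧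
      (A.card : ℝ) ≤ 2 * K * (fib A F b).card) ∧
      (B.card : ℝ) ≤ 2 * K * B'.card := by
  unfold fib
  set N : ℝ := (A.card : ℝ) with hN
  set L : ℝ := (B.card : ℝ) with hL
  have hN0 : 0 < N := by rw [hN]; exact_mod_cast hA.card_pos
  set f : β → ℝ := fun b => ((A.filter (fun x => (x, b) ∈ F)).card : ℝ) with hf
  set R : Finset β := B.filter (fun b => N ≤ 2 * K * f b) with hR
  have hFsum : (F.card : ℝ) = ∑ b ∈ B, f b := by
    have h1 : F = (A ×ˢ B).filter (fun z => z ∈ F) := by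
      ext z
      rw [mem_filter]
      exact ⟨fun h => ⟨hF h, h⟩, fun h => h.2⟩
    have h2 : F.card = ∑ b ∈ B, (A.filter (fun x => (x, b) ∈ F)).card := by
      conv_lhs => rw [h1]
      rw [card_filter, sum_product_right]
      refine sum_congr rfl (fun b _ => ?_)
      rw [card_filter]
    rw [h2]
    push_cast
    rfl
  have hRsum : N * L / (2 * K) ≤ ∑ b ∈ R, f b := by
    have h1 : ∑ b ∈ B, f b ≤ ∑ b ∈ R, f b + L * (N / (2 * K)) := by
      rw [← sum_filter_add_sum_filter_not B (fun b => N ≤ 2 * K * f b)]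
      have h2 : ∑ b ∈ B.filter (fun b => ¬ N ≤ 2 * K * f b), f b ≤
          ∑ b ∈ B.filter (fun b => ¬ N ≤ 2 * K * f b), N / (2 * K) := by
        apply sum_le_sum
        intro b hb
        rw [mem_filter] at hb
        rw [le_div_iff₀ (by positivity)]
        linarith only [not_le.mp hb.2]
      have h3 : ∑ b ∈ B.filter (fun b => ¬ N ≤ 2 * K * f b), N / (2 * K) ≤ L * (N / (2 * K)) := by
        rw [sum_const, nsmul_eq_mul]
        have : ((B.filter (fun b => ¬ N ≤ 2 * K * f b)).card : ℝ) ≤ L := by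
          rw [hL]
          exact_mod_cast card_filter_le _ _
        gcongr
      linarith only [h2, h3]
    have h4 : N * L / K ≤ ∑ b ∈ B, f b := by
      rw [← hFsum, div_le_iff₀ hK]
      linarith only [hc]
    have h5 : N * L / K = N * L / (2 * K) + L * (N / (2 * K)) := by field_simp; ring
    linarith only [h1, h4, h5]
  -- double counting
  have hswap : ∑ b ∈ R, f b = ∑ a ∈ A, ((R.filter (fun b => (a, b) ∈ F)).card : ℝ) := by
    have h1 : ∑ b ∈ R, (A.filter (fun x => (x, b) ∈ F)).card =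
        ∑ a ∈ A, (R.filter (fun b => (a, b) ∈ F)).card := by
      simp_rw [card_filter]
      exact sum_comm
    calc ∑ b ∈ R, f b = ((∑ b ∈ R, (A.filter (fun x => (x, b) ∈ F)).card : ℕ) : ℝ) := by
          push_cast; rfl
      _ = _ := by rw [h1]; push_cast; rfl
  obtain ⟨a, ha, hga⟩ : ∃ a ∈ A, L / (2 * K) ≤ ((R.filter (fun b => (a, b) ∈ F)).card : ℝ) := by
    by_contra hcon
    push Not at hcon
    have h1 : ∑ a ∈ A, ((R.filter (fun b => (a, b) ∈ F)).card : ℝ) < ∑ a ∈ A, L / (2 * K) :=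
      sum_lt_sum_of_nonempty hA hcon
    rw [sum_const, nsmul_eq_mul, ← hN, ← hswap] at h1
    have h2 : N * (L / (2 * K)) = N * L / (2 * K) := by ring
    linarith only [h1, h2, hRsum]
  refine ⟨a, ha, R.filter (fun b => (a, b) ∈ F), (filter_subset _ _).trans (filter_subset _ _),
    ?_, ?_⟩
  · intro b hb
    rw [mem_filter, hR, mem_filter] at hb
    exact ⟨hb.2, hb.1.2⟩
  · rw [div_le_iff₀ (by positivity)] at hga
    linarith only [hga]

/-- the logarithm -/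
theorem log_bound (ε : ℝ) (hε : 0 < ε) : ∃ C : ℝ, 1 ≤ C ∧ ∀ (t : ℕ) (K y : ℝ), 1 ≤ t → 1 ≤ K →
    0 ≤ y → y ≤ 4 * K * (t:ℝ) ^ 2 → 6 * Real.log (y + 1) + 1 ≤ C * K * (t:ℝ) ^ ε := by
  set η : ℝ := min 1 (ε / 2) with hη
  have hη0 : 0 < η := lt_min one_pos (by positivity)
  have hη1 : η ≤ 1 := min_le_left _ _
  have hη2 : 2 * η ≤ ε := by
    have : η ≤ ε / 2 := min_le_right _ _
    linarith only [this]
  refine ⟨30 / η + 1, by
    have : 0 < 30 / η := by positivity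
    linarith only [this], ?_⟩
  intro t K y ht hK hy0 hy
  have ht1 : (1:ℝ) ≤ t := by exact_mod_cast ht
  have ht0 : (0:ℝ) < t := by linarith only [ht1]
  have hK0 : 0 < K := by linarith only [hK]
  have h1 : y + 1 ≤ 5 * K * (t:ℝ) ^ 2 := by
    have : 1 ≤ K * (t:ℝ) ^ 2 := by
      have := one_le_pow₀ ht1 (n := 2)
      nlinarith only [this, hK]
    linarith only [this, hy]
  have h2 : Real.log (y + 1) ≤ (5 * K * (t:ℝ) ^ 2) ^ η / η := by
    refine (Real.log_le_log (by linarith only [hy0]) h1).trans ?_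
    exact Real.log_le_rpow_div (by positivity) hη0
  have h3 : (5 * K * (t:ℝ) ^ 2) ^ η ≤ 5 * K * (t:ℝ) ^ ε := by
    rw [Real.mul_rpow (by positivity) (by positivity)]
    have h4 : (5 * K) ^ η ≤ 5 * K := by
      calc (5 * K) ^ η ≤ (5 * K) ^ (1:ℝ) :=
            Real.rpow_le_rpow_of_exponent_le (by linarith only [hK]) hη1
        _ = 5 * K := Real.rpow_one _
    have h5 : ((t:ℝ) ^ 2) ^ η ≤ (t:ℝ) ^ ε := by
      rw [← Real.rpow_natCast, ← Real.rpow_mul ht0.le]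
      exact Real.rpow_le_rpow_of_exponent_le ht1 (by push_cast; exact hη2)
    have h6 : 0 ≤ ((t:ℝ) ^ 2) ^ η := by positivity
    gcongr
  have h7 : 1 ≤ K * (t:ℝ) ^ ε := by
    have h8 : 1 ≤ (t:ℝ) ^ ε := Real.one_le_rpow ht1 hε.le
    nlinarith only [h8, hK]
  calc 6 * Real.log (y + 1) + 1 ≤ 6 * ((5 * K * (t:ℝ) ^ 2) ^ η / η) + 1 := by linarith only [h2]
    _ ≤ 6 * ((5 * K * (t:ℝ) ^ ε) / η) + K * (t:ℝ) ^ ε := by gcongr
    _ = (30 / η + 1) * K * (t:ℝ) ^ ε := by ring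

/-- the numbers of the pair bound -/
theorem numbers {κ D Λ K T : ℝ} (hκ : 0 < κ) (hD : 1 ≤ D) (hΛ : 1 ≤ Λ) (hK : 1 ≤ K) (hT : 1 ≤ T)
    (h : κ * D ≤ 2 ^ 12 * Λ ^ 2 * ((4 * K * T) ^ 2 / κ) + 2 * (4 * K * T)) :
    κ * √D ≤ 2 ^ 9 * (Λ * K * T) := by
  have hD0 : 0 ≤ D := by linarith only [hD]
  set r := √D with hr
  have hr2 : r ^ 2 = D := Real.sq_sqrt hD0
  have hr1 : 1 ≤ r := by rw [hr]; exact Real.one_le_sqrt.mpr hD
  have hr0 : 0 < r := by linarith only [hr1]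
  by_contra hcon
  push Not at hcon
  set Z := Λ * K * T with hZ
  have hZ0 : 0 < Z := by positivity
  have hKT : 0 < K * T := by positivity
  have hKTZ : K * T ≤ Z := by
    rw [hZ, mul_assoc]
    exact le_mul_of_one_le_left hKT.le hΛ
  have h1 : κ * (κ * D) ≤ κ * (2 ^ 12 * Λ ^ 2 * ((4 * K * T) ^ 2 / κ) + 2 * (4 * K * T)) :=
    mul_le_mul_of_nonneg_left h hκ.le
  have h2 : κ * (2 ^ 12 * Λ ^ 2 * ((4 * K * T) ^ 2 / κ) + 2 * (4 * K * T)) =
      2 ^ 16 * Z ^ 2 + 8 * κ * (K * T) := by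
    rw [hZ]; field_simp; ring
  have h3 : κ * (κ * D) = (κ * r) ^ 2 := by rw [mul_pow, hr2]; ring
  have h4 : κ ≤ κ * r := le_mul_of_one_le_right hκ.le hr1
  have h5 : 8 * κ * (K * T) ≤ 8 * (κ * r) * Z := by
    have : 0 ≤ κ * r := by positivity
    calc 8 * κ * (K * T) ≤ 8 * (κ * r) * (K * T) := by gcongr
      _ ≤ _ := by gcongr
  have h6 : (κ * r) ^ 2 ≤ 2 ^ 16 * Z ^ 2 + 8 * (κ * r) * Z := by linarith only [h1, h2, h3, h5]
  nlinarith only [h6, hcon, hZ0]

theorem numbers' {κ D Λ Y X : ℝ} (hκ : 0 < κ)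
    (h : κ * D ≤ 2 ^ 12 * Λ ^ 2 * (X ^ 2 / κ ^ 3) + 2 * (X / κ)) (hX0 : 0 ≤ X) (hX : X / κ ≤ Y) :
    κ * D ≤ 2 ^ 12 * Λ ^ 2 * (Y ^ 2 / κ) + 2 * Y := by
  refine h.trans ?_
  have h2 : X ^ 2 / κ ^ 3 = (X / κ) ^ 2 / κ := by
    rw [div_pow, div_div, ← pow_succ]
  have h3 : 0 ≤ X / κ := by positivity
  rw [h2]
  gcongr

open scoped Classical in
/-- a dense subset of a set of reals times a set of dimension `k` -/
theorem pair_bound (k : ℕ) (α : ℝ) (hα : 1 ≤ α) (hSex : Vale.Agent.P054I.Sex k (Vale.Agent.P054I.DC k) α) :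
    ∀ ε : ℝ, 0 < ε → ∃ C : ℝ, 0 < C ∧ ∀ (t : ℕ) (K : ℝ) (A : Finset ℝ)
      (B : Finset (EuclideanSpace ℝ (Fin k))) (F : Finset (ℝ × EuclideanSpace ℝ (Fin k))),
      1 ≤ t → 1 ≤ K → F ⊆ A ×ˢ B → (A.card : ℝ) * B.card ≤ K * F.card →
      ((F ×ˢ F).image (fun q => (q.1.1 - q.2.1) ^ 2 + dist q.1.2 q.2.2 ^ 2)).card ≤ t + 1 →
      (A.card : ℝ) * B.card ≤ C * K ^ 4 * (t:ℝ) ^ (α + 1 / 2 + ε) := by
  intro ε hε
  obtain ⟨C0, hC0, hC⟩ := hSex (ε / 2) (by positivity)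
  obtain ⟨C1, hC1, hlog⟩ := log_bound (ε / 2) (by positivity)
  refine ⟨2 ^ 11 * C0 * C1, by positivity, ?_⟩
  intro t K A B F ht hK hF hc hS
  have ht1 : (1:ℝ) ≤ t := by exact_mod_cast ht
  have ht0 : (0:ℝ) < t := by linarith only [ht1]
  have hK0 : 0 < K := by linarith only [hK]
  rcases A.eq_empty_or_nonempty with hA | hA
  · rw [hA, card_empty, Nat.cast_zero, zero_mul]
    positivity
  rcases B.eq_empty_or_nonempty with hB | hB
  · rw [hB, card_empty, Nat.cast_zero, mul_zero]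
    positivity
  obtain ⟨S, hSdef⟩ : ∃ S : Finset ℝ,
      S = (F ×ˢ F).image (fun q => (q.1.1 - q.2.1) ^ 2 + dist q.1.2 q.2.2 ^ 2) := ⟨_, rfl⟩
  rw [← hSdef] at hS
  have hSmem : ∀ x b y b', (x, b) ∈ F → (y, b') ∈ F → (x - y) ^ 2 + dist b b' ^ 2 ∈ S := by
    intro x b y b' h1 h2
    rw [hSdef, mem_image]
    exact ⟨((x, b), (y, b')), mem_product.mpr ⟨h1, h2⟩, rfl⟩
  have hS2 : (S.card : ℝ) ≤ 2 * t := by
    have : (S.card : ℝ) ≤ t + 1 := by exact_mod_cast hS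
    linarith only [this, ht1]
  obtain ⟨a, ha, B', hB', hrich, hBc⟩ := rich_fibres A B F K hK0 hA hF hc
  obtain ⟨N, hN⟩ : ∃ N : ℝ, N = (A.card : ℝ) := ⟨_, rfl⟩
  obtain ⟨L, hL⟩ : ∃ L : ℝ, L = (B.card : ℝ) := ⟨_, rfl⟩
  rw [← hN] at hc hrich
  rw [← hL] at hc hBc
  rw [← hN, ← hL]
  have hN0 : 0 < N := by rw [hN]; exact_mod_cast hA.card_pos
  have hL0 : 0 < L := by rw [hL]; exact_mod_cast hB.card_pos
  have hB'ne : B'.Nonempty := by
    rw [nonempty_iff_ne_empty]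
    intro h
    rw [h, card_empty] at hBc
    push_cast at hBc
    linarith only [hBc, hL0]
  -- fibres have at most `2 t` points
  have hfib : ∀ b : EuclideanSpace ℝ (Fin k),
      ((fib A F b).card : ℝ) ≤ 2 * t := by
    intro b
    rcases (fib A F b).eq_empty_or_nonempty with h | h
    · rw [h, card_empty]; push_cast; positivity
    · refine le_trans ?_ hS2
      have hm := min'_mem _ h
      set m := (fib A F b).min' h with hmdef
      have h3 := card_le_card_of_injOn (s := fib A F b) (t := S)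
        (fun x => (x - m) ^ 2)
        (by
          intro x hx
          have h4 := hSmem x b m b (mem_fib.mp hx).2 (mem_fib.mp hm).2
          simpa using h4)
        (by
          intro x hx y hy hxy
          have h4 : m ≤ x := min'_le _ _ hx
          have h5 : m ≤ y := min'_le _ _ hy
          have h6 : (x - m) ^ 2 = (y - m) ^ 2 := hxy
          have h7 : x - m = y - m := by
            exact (pow_left_inj₀ (by linarith only [h4]) (by linarith only [h5]) two_ne_zero).mp h6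
          linarith only [h7])
      exact_mod_cast h3
  obtain ⟨b0, hb0⟩ := hB'ne
  have hNt : N ≤ 4 * K * t := by
    have h1 := (hrich b0 hb0).2
    have h2 := hfib b0
    calc N ≤ 2 * K * ((fib A F b0).card : ℝ) := h1
      _ ≤ 2 * K * (2 * t) := by gcongr
      _ = 4 * K * t := by ring
  -- the distances of `B'`
  set Δ : Finset ℝ := B'.offDiag.image (fun q => dist q.1 q.2 ^ 2) with hΔ
  have hΔc : Δ.card = (B'.offDiag.image (fun q => dist q.1 q.2)).card := by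
    have h1 : Δ = (B'.offDiag.image (fun q => dist q.1 q.2)).image (fun r => r ^ 2) := by
      rw [hΔ, image_image]; rfl
    rw [h1, card_image_of_injOn]
    intro x hx y hy hxy
    simp only [coe_image, Set.mem_image, mem_coe] at hx hy
    obtain ⟨q, _, rfl⟩ := hx
    obtain ⟨q', _, rfl⟩ := hy
    exact (pow_left_inj₀ dist_nonneg dist_nonneg two_ne_zero).mp hxy
  have hΔt : Δ.card ≤ t := by
    have h1 : insert 0 Δ ⊆ S := by
      intro r hr
      rw [mem_insert] at hr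
      rcases hr with rfl | hr
      · have := hSmem a b0 a b0 (hrich b0 hb0).1 (hrich b0 hb0).1
        simpa using this
      · rw [hΔ, mem_image] at hr
        obtain ⟨⟨b, b'⟩, hq, rfl⟩ := hr
        rw [mem_offDiag] at hq
        have := hSmem a b a b' (hrich b hq.1).1 (hrich b' hq.2.1).1
        simpa using this
    have h2 : (0:ℝ) ∉ Δ := by
      rw [hΔ, mem_image]
      rintro ⟨⟨b, b'⟩, hq, h3⟩
      rw [mem_offDiag] at hq
      have h4 : dist b b' = 0 := by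
        have := pow_eq_zero_iff (two_ne_zero) |>.mp h3
        exact this
      exact hq.2.2 (dist_eq_zero.mp h4)
    have h3 := card_le_card h1
    rw [card_insert_of_notMem h2] at h3
    omega
  -- the size of `B'`
  obtain ⟨D, hDdef⟩ : ∃ D : ℕ, D = max 1 Δ.card := ⟨_, rfl⟩
  have hD1 : 1 ≤ D := by rw [hDdef]; exact le_max_left _ _
  have hDt : D ≤ t := by rw [hDdef]; exact max_le ht hΔt
  have hD1' : (1:ℝ) ≤ D := by exact_mod_cast hD1
  have hDt' : (D:ℝ) ≤ t := by exact_mod_cast hDt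
  have hD0 : (0:ℝ) < D := by linarith only [hD1']
  have hB'c : (B'.card : ℝ) ≤ C0 * (D:ℝ) ^ (α + ε / 2) := by
    apply hC D hD1
    unfold Vale.Agent.P054I.DC
    rw [← hΔc, hDdef]
    exact le_max_right _ _
  have hLD : L ≤ 2 * K * (C0 * (D:ℝ) ^ (α + ε / 2)) := by
    refine hBc.trans ?_
    gcongr
  -- `N √D ≤ 2 ^ 10 Λ K ^ 2 t`
  obtain ⟨Λ, hΛdef⟩ : ∃ Λ : ℝ, Λ = 6 * Real.log (N * Δ.card + 1) + 1 := ⟨_, rfl⟩
  have hy0 : 0 ≤ N * (Δ.card : ℝ) := by positivity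
  have hΛ1 : 1 ≤ Λ := by
    have : 0 ≤ Real.log (N * Δ.card + 1) := Real.log_nonneg (by linarith only [hy0])
    linarith only [this, hΛdef]
  have hΛC : Λ ≤ C1 * K * (t:ℝ) ^ (ε / 2) := by
    rw [hΛdef]
    apply hlog t K _ ht hK hy0
    have h1 : (Δ.card : ℝ) ≤ t := by exact_mod_cast hΔt
    calc N * (Δ.card : ℝ) ≤ (4 * K * t) * t := by gcongr
      _ = _ := by ring
  have hND : N * √(D:ℝ) ≤ 2 ^ 10 * (Λ * K ^ 2 * t) := by
    have hsD : √(D:ℝ) ≤ t := by
      calc √(D:ℝ) ≤ D := by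
            rw [Real.sqrt_le_left (by positivity)]
            nlinarith only [hD1']
        _ ≤ t := hDt'
    rcases Nat.eq_zero_or_pos Δ.card with h0 | hpos
    · -- no distances
      have hD : D = 1 := by rw [hDdef, h0]; rfl
      rw [hD, Nat.cast_one, Real.sqrt_one, mul_one]
      have h1 : K * t ≤ Λ * K ^ 2 * t := by
        calc K * t = 1 * (K * 1) * t := by ring
          _ ≤ Λ * (K * K) * t := by gcongr
          _ = _ := by ring
      linarith only [h1, hNt, show 0 ≤ K * (t:ℝ) by positivity]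
    · have hDΔ : D = Δ.card := by rw [hDdef]; exact max_eq_right hpos
      by_cases hbig : 64 * Λ ≤ N / (2 * K)
      · -- Szemeredi-Trotter
        have hch : ∀ δ ∈ Δ, ∃ q : EuclideanSpace ℝ (Fin k) × EuclideanSpace ℝ (Fin k),
            q.1 ∈ B' ∧ q.2 ∈ B' ∧ dist q.1 q.2 ^ 2 = δ := by
          intro δ hδ
          rw [hΔ, mem_image] at hδ
          obtain ⟨q, hq, h⟩ := hδ
          rw [mem_offDiag] at hq
          exact ⟨q, hq.1, hq.2.1, h⟩
        have : Nonempty (EuclideanSpace ℝ (Fin k)) := ⟨b0⟩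
        choose! q hq1 hq2 hq3 using hch
        have hκ : ∀ b ∈ B', N / (2 * K) ≤ ((fib A F b).card : ℝ) := by
          intro b hb
          rw [div_le_iff₀ (by positivity)]
          linarith only [(hrich b hb).2]
        have hST := st_core A S Δ (fun δ => fib A F (q δ).1)
          (fun δ => fib A F (q δ).2) (N / (2 * K)) Λ
          (fun δ _ x hx => (mem_fib.mp hx).1) (fun δ _ x hx => (mem_fib.mp hx).1)
          (fun δ hδ => hκ _ (hq1 δ hδ)) (fun δ hδ => hκ _ (hq2 δ hδ))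
          (by
            intro δ hδ x hx y hy
            have h1 := hSmem x (q δ).1 y (q δ).2 (mem_fib.mp hx).2 (mem_fib.mp hy).2
            rw [hq3 δ hδ] at h1
            exact h1)
          (by rw [← hN]; exact hΛdef.ge) hbig (by linarith only [hΛ1])
        obtain ⟨κ, hκdef⟩ : ∃ κ : ℝ, κ = N / (2 * K) := ⟨_, rfl⟩
        rw [← hκdef, ← hN] at hST
        have hκ0 : 0 < κ := by rw [hκdef]; positivity
        have hNκ : N = 2 * K * κ := by rw [hκdef]; field_simp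
        have hNS : N * S.card / κ ≤ 4 * K * t := by
          rw [div_le_iff₀ hκ0]
          calc N * (S.card : ℝ) ≤ N * (2 * t) := by gcongr
            _ = 4 * K * t * κ := by rw [hNκ]; ring
        have h1 : κ * (D:ℝ) ≤ 2 ^ 12 * Λ ^ 2 * ((4 * K * t) ^ 2 / κ) + 2 * (4 * K * t) := by
          rw [hDΔ]
          exact numbers' hκ0 hST (mul_nonneg hN0.le (Nat.cast_nonneg _)) hNS
        have h3 := numbers hκ0 hD1' hΛ1 hK ht1 h1
        calc N * √(D:ℝ) = 2 * K * (κ * √(D:ℝ)) := by rw [hNκ]; ring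
          _ ≤ 2 * K * (2 ^ 9 * (Λ * K * t)) := by gcongr
          _ = _ := by ring
      · push Not at hbig
        have h1 : N ≤ 128 * K * Λ := by
          rw [div_lt_iff₀ (by positivity)] at hbig
          linarith only [hbig]
        calc N * √(D:ℝ) ≤ (128 * K * Λ) * t := by gcongr
          _ = 128 * (Λ * (K * 1) * t) := by ring
          _ ≤ 2 ^ 10 * (Λ * (K * K) * t) := by
            have h2 : Λ * (K * 1) * (t:ℝ) ≤ Λ * (K * K) * t := by gcongr
            have h3 : 0 ≤ Λ * (K * K) * (t:ℝ) := by positivity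
            linarith only [h2, h3]
          _ = _ := by ring
  -- conclusion
  have hs0 : 0 < √(D:ℝ) := Real.sqrt_pos.mpr hD0
  have hDp : (D:ℝ) ^ (α + ε / 2) = √(D:ℝ) * (D:ℝ) ^ (α - 1 / 2 + ε / 2) := by
    rw [Real.sqrt_eq_rpow, ← Real.rpow_add hD0]
    congr 1; ring
  have hDq : (D:ℝ) ^ (α - 1 / 2 + ε / 2) ≤ (t:ℝ) ^ (α - 1 / 2 + ε / 2) :=
    Real.rpow_le_rpow hD0.le hDt' (by linarith only [hα, hε])
  calc N * L ≤ N * (2 * K * (C0 * (D:ℝ) ^ (α + ε / 2))) := by gcongr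
    _ = 2 * K * C0 * (N * √(D:ℝ)) * (D:ℝ) ^ (α - 1 / 2 + ε / 2) := by rw [hDp]; ring
    _ ≤ 2 * K * C0 * (2 ^ 10 * (Λ * K ^ 2 * t)) * (t:ℝ) ^ (α - 1 / 2 + ε / 2) := by gcongr
    _ ≤ 2 * K * C0 * (2 ^ 10 * ((C1 * K * (t:ℝ) ^ (ε / 2)) * K ^ 2 * t)) *
        (t:ℝ) ^ (α - 1 / 2 + ε / 2) := by gcongr
    _ = 2 ^ 11 * C0 * C1 * K ^ 4 * ((t:ℝ) ^ (ε / 2) * (t:ℝ) ^ (1:ℝ) *
        (t:ℝ) ^ (α - 1 / 2 + ε / 2)) := by rw [Real.rpow_one]; ring
    _ = _ := by
      rw [← Real.rpow_add ht0, ← Real.rpow_add ht0]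
      congr 2; ring

end Vale.Agent.P054P
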