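import Mathlib.Analysis.InnerProductSpace.PiL2

/-! # P054.SmallBlocks: blocks of coordinates -/

set_option linter.all false
set_option autoImplicit false

open Finset

namespace Vale.Agent.P054P

/-- the coordinates of `p` in the block `j` -/
def blk {d : ℕ} (β : Fin d → ℕ) (j : ℕ) (p : EuclideanSpace ℝ (Fin d)) :
    {i : Fin d // β i = j} → ℝ :=
  fun i => p i

open scoped Classical in
/-- the number of points of the projection of `P` on the block `j` -/
noncomputable def bn {d : ℕ} (β : Fin d → ℕ) (P : Finset (EuclideanSpace ℝ (Fin d))) (j : ℕ) : ℕ :=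
  (P.image (blk β j)).card

end Vale.Agent.P054P
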