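import Vale.Agent.P054.H25P.Mid
import Vale.Agent.P054.H25P.A25
import Vale.Agent.P054.H25P.B97

/-! # P054.SmallBlocks: all pairs of blocks, and the final bound -/

set_option linter.all false
set_option autoImplicit false

open Finset Vale.Agent.P054I

namespace Vale.Agent.P054P

theorem bn_pos {d : ℕ} (β : Fin d → ℕ) (P : Finset (EuclideanSpace ℝ (Fin d)))
    (hP : P.Nonempty) (j : ℕ) : (1:ℝ) ≤ bn β P j := by
  unfold bn
  have h := (hP.image (blk β j)).card_pos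
  have h1 : 1 ≤ (P.image (blk β j)).card := h
  exact_mod_cast h1

/-- the product of the block numbers -/
noncomputable def MM {d : ℕ} (β : Fin d → ℕ) (P : Finset (EuclideanSpace ℝ (Fin d))) : ℝ :=
  ∏ j ∈ univ.image β, (bn β P j : ℝ)

theorem fibre_K {d : ℕ} (β : Fin d → ℕ) (P : Finset (EuclideanSpace ℝ (Fin d)))
    (hP : P.Nonempty) (S : Finset ℕ) (hS : S ⊆ univ.image β) :
    ∃ F ⊆ P, (∀ p ∈ F, ∀ q ∈ F, ∀ i, β i ∉ S → p i = q i) ∧
      ∏ j ∈ S, (bn β P j : ℝ) ≤ MM β P / P.card * F.card := by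
  obtain ⟨F, hF, _, h1, h2⟩ := exists_fibre β P hP S
  refine ⟨F, hF, h1, ?_⟩
  have hn : (0:ℝ) < P.card := by exact_mod_cast hP.card_pos
  have hM : MM β P = (∏ j ∈ (univ.image β) \ S, (bn β P j : ℝ)) * ∏ j ∈ S, (bn β P j : ℝ) := by
    unfold MM
    rw [prod_sdiff hS]
  rw [div_mul_eq_mul_div, le_div_iff₀ hn, hM]
  have h3 : (0:ℝ) ≤ ∏ j ∈ S, (bn β P j : ℝ) := prod_nonneg (fun _ _ => Nat.cast_nonneg _)
  calc (∏ j ∈ S, (bn β P j : ℝ)) * P.card ≤
      (∏ j ∈ S, (bn β P j : ℝ)) * (F.card * ∏ j ∈ (univ.image β) \ S, (bn β P j : ℝ)) := by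
        gcongr
    _ = _ := by ring

theorem K_ge {d : ℕ} (β : Fin d → ℕ) (P : Finset (EuclideanSpace ℝ (Fin d)))
    (hP : P.Nonempty) : 1 ≤ MM β P / P.card := by
  obtain ⟨F, hF, h1, h2⟩ := fibre_K β P hP ∅ (empty_subset _)
  rw [prod_empty] at h2
  have hM0 : 0 ≤ MM β P / P.card :=
    div_nonneg (prod_nonneg (fun _ _ => Nat.cast_nonneg _)) (Nat.cast_nonneg _)
  have h3 : F.card ≤ 1 := by
    rw [card_le_one]
    intro p hp q hq
    ext i
    exact h1 p hp q hq i (notMem_empty _)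
  have h4 : (F.card : ℝ) ≤ 1 := by exact_mod_cast h3
  calc (1:ℝ) ≤ MM β P / P.card * F.card := h2
    _ ≤ MM β P / P.card * 1 := by gcongr
    _ = _ := mul_one _

open scoped Classical in
/-- the bounds for single blocks and pairs of blocks -/
theorem blocks_bound (ε : ℝ) (hε : 0 < ε) : ∃ C : ℝ, 1 ≤ C ∧ ∀ (d : ℕ) (β : Fin d → ℕ)
    (P : Finset (EuclideanSpace ℝ (Fin d))) (t : ℕ), 1 ≤ t →
    (∀ j, (univ.filter (fun l => β l = j)).card ≤ 3) → P.Nonempty →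
    (P.offDiag.image (fun q => dist q.1 q.2)).card ≤ t →
    (∀ j ∈ univ.image β, 2 ≤ (univ.filter (fun i => β i = j)).card →
      (bn β P j : ℝ) ≤ (C * (MM β P / P.card) ^ 2 * (t:ℝ) ^ ε) *
        (t:ℝ) ^ (((univ.filter (fun i => β i = j)).card : ℝ) / 2)) ∧
    (∀ i ∈ univ.image β, ∀ j ∈ univ.image β, i ≠ j →
      (bn β P i : ℝ) * bn β P j ≤ (C * (MM β P / P.card) ^ 2 * (t:ℝ) ^ ε) ^ 2 *
        (t:ℝ) ^ ((((univ.filter (fun l => β l = i)).card : ℝ) +
        (univ.filter (fun l => β l = j)).card) / 2)) := by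
  obtain ⟨C2, hC2, h2⟩ := single 2 1 sex_dc2 ε hε
  obtain ⟨C3, hC3, h3⟩ := single 3 (3 / 2) sex_dc3 ε hε
  obtain ⟨C11, hC11, h11⟩ := pair11 ε hε
  obtain ⟨C12, hC12, h12⟩ := pair1k 2 1 le_rfl sex_dc2 ε hε
  obtain ⟨C13, hC13, h13⟩ := pair1k 3 (3 / 2) (by norm_num) sex_dc3 ε hε
  refine ⟨1 + C2 + C3 + C11 + C12 + C13, by linarith only [hC2, hC3, hC11, hC12, hC13], ?_⟩
  intro d β P t ht hβ hP hPt
  obtain ⟨C, hC⟩ : ∃ C : ℝ, C = 1 + C2 + C3 + C11 + C12 + C13 := ⟨_, rfl⟩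
  rw [← hC]
  have hC1 : 1 ≤ C := by linarith only [hC, hC2, hC3, hC11, hC12, hC13]
  have c2 : C2 ≤ C := by linarith only [hC, hC2, hC3, hC11, hC12, hC13]
  have c3 : C3 ≤ C := by linarith only [hC, hC2, hC3, hC11, hC12, hC13]
  have c11 : C11 ≤ C := by linarith only [hC, hC2, hC3, hC11, hC12, hC13]
  have c12 : C12 ≤ C := by linarith only [hC, hC2, hC3, hC11, hC12, hC13]
  have c13 : C13 ≤ C := by linarith only [hC, hC2, hC3, hC11, hC12, hC13]
  have hK := K_ge β P hP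
  obtain ⟨K, hKdef⟩ : ∃ K : ℝ, K = MM β P / P.card := ⟨_, rfl⟩
  rw [← hKdef] at hK ⊢
  have hK0 : 0 < K := by linarith only [hK]
  have ht1 : (1:ℝ) ≤ t := by exact_mod_cast ht
  obtain ⟨T, hT⟩ : ∃ T : ℝ, T = (t:ℝ) := ⟨_, rfl⟩
  rw [← hT] at ht1 ⊢
  have hT0 : 0 < T := by linarith only [ht1]
  obtain ⟨E, hE⟩ : ∃ E : ℝ, E = T ^ ε := ⟨_, rfl⟩
  have hE1 : 1 ≤ E := by rw [hE]; exact Real.one_le_rpow ht1 hε.le
  have hadd : ∀ α : ℝ, T ^ (α + ε) = T ^ α * E := by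
    intro α; rw [hE, Real.rpow_add hT0]
  rw [← hE]
  have hKK : K ≤ K ^ 2 := by nlinarith only [hK]
  have hK4 : K ≤ K ^ 4 := by
    calc K = K ^ 1 := (pow_one K).symm
      _ ≤ K ^ 4 := pow_le_pow_right₀ hK (by norm_num)
  have hsub : ∀ F ⊆ P, (F.offDiag.image (fun q => dist q.1 q.2)).card ≤ t := fun F hF =>
    (card_le_card (image_subset_image (offDiag_mono hF))).trans hPt
  -- single blocks
  have hsingle : ∀ j ∈ univ.image β, 2 ≤ (univ.filter (fun i => β i = j)).card →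
      (bn β P j : ℝ) ≤ (C * K ^ 2 * E) *
        T ^ (((univ.filter (fun i => β i = j)).card : ℝ) / 2) := by
    intro j hj hj2
    obtain ⟨F, hF, hag, hcF⟩ := fibre_K β P hP {j} (singleton_subset_iff.mpr hj)
    rw [prod_singleton, ← hKdef] at hcF
    have hj3 := hβ j
    obtain ⟨c, hc⟩ : ∃ c : ℕ, c = (univ.filter (fun i => β i = j)).card := ⟨_, rfl⟩
    rw [← hc] at hj2 hj3 ⊢
    interval_cases c
    · have h4 := h2 d β F j t ht hc.symm hag (hsub F hF)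
      rw [← hT, hadd] at h4
      have h5 : T ^ (((2:ℕ) : ℝ) / 2) = T ^ (1:ℝ) := by norm_num
      rw [h5]
      have h6 : 0 < T ^ (1:ℝ) := by positivity
      calc (bn β P j : ℝ) ≤ K * F.card := hcF
        _ ≤ K ^ 2 * (C * (T ^ (1:ℝ) * E)) := by
          have h7 : C2 * (T ^ (1:ℝ) * E) ≤ C * (T ^ (1:ℝ) * E) := by gcongr
          exact mul_le_mul hKK (h4.trans h7) (Nat.cast_nonneg _) (by positivity)
        _ = _ := by ring
    · have h4 := h3 d β F j t ht hc.symm hag (hsub F hF)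
      rw [← hT, hadd] at h4
      have h5 : T ^ (((3:ℕ) : ℝ) / 2) = T ^ ((3:ℝ) / 2) := by norm_num
      rw [h5]
      have h6 : 0 < T ^ ((3:ℝ) / 2) := by positivity
      calc (bn β P j : ℝ) ≤ K * F.card := hcF
        _ ≤ K ^ 2 * (C * (T ^ ((3:ℝ) / 2) * E)) := by
          have h7 : C3 * (T ^ ((3:ℝ) / 2) * E) ≤ C * (T ^ ((3:ℝ) / 2) * E) := by gcongr
          exact mul_le_mul hKK (h4.trans h7) (Nat.cast_nonneg _) (by positivity)
        _ = _ := by ring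
  -- one coordinate and `k` coordinates
  have hX2 : ∀ α : ℝ, C * K ^ 4 * (T ^ α * E) ≤ (C * K ^ 2 * E) ^ 2 * T ^ α := by
    intro α
    have h6 : 0 < T ^ α := by positivity
    have h7 : C * E ≤ (C * E) ^ 2 := by
      have : 1 ≤ C * E := by nlinarith only [hC1, hE1]
      nlinarith only [this]
    calc C * K ^ 4 * (T ^ α * E) = (K ^ 4 * T ^ α) * (C * E) := by ring
      _ ≤ (K ^ 4 * T ^ α) * (C * E) ^ 2 := by gcongr
      _ = _ := by ring
  have hone : ∀ i ∈ univ.image β, ∀ j ∈ univ.image β, i ≠ j →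
      (univ.filter (fun l => β l = i)).card = 1 →
      (bn β P i : ℝ) * bn β P j ≤ (C * K ^ 2 * E) ^ 2 *
        T ^ ((((univ.filter (fun l => β l = i)).card : ℝ) +
        (univ.filter (fun l => β l = j)).card) / 2) := by
    intro i hi j hj hij hi1
    obtain ⟨F, hF, hag, hcF⟩ := fibre_K β P hP {i, j} (by
      rw [insert_subset_iff]
      exact ⟨hi, singleton_subset_iff.mpr hj⟩)
    rw [prod_pair hij, ← hKdef] at hcF
    rw [hi1]
    have hj3 := hβ j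
    have hj1 : 1 ≤ (univ.filter (fun i => β i = j)).card := by
      obtain ⟨l, _, hl⟩ := mem_image.mp hj
      exact card_pos.mpr ⟨l, mem_filter.mpr ⟨mem_univ _, hl⟩⟩
    obtain ⟨c, hc⟩ : ∃ c : ℕ, c = (univ.filter (fun i => β i = j)).card := ⟨_, rfl⟩
    rw [← hc] at hj1 hj3 ⊢
    interval_cases c
    · have h4 := h11 d β F i j t ht hij hi1 hc.symm hag (hsub F hF)
      rw [← hT, hadd] at h4
      have h5 : T ^ ((((1:ℕ) : ℝ) + ((1:ℕ) : ℝ)) / 2) = T ^ (1:ℝ) := by norm_num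
      rw [h5]
      have h6 : 0 < T ^ (1:ℝ) := by positivity
      refine le_trans ?_ (hX2 1)
      calc (bn β P i : ℝ) * bn β P j ≤ K * F.card := hcF
        _ ≤ K ^ 4 * (C * (T ^ (1:ℝ) * E)) := by
          have h7 : C11 * (T ^ (1:ℝ) * E) ≤ C * (T ^ (1:ℝ) * E) := by gcongr
          exact mul_le_mul hK4 (h4.trans h7) (Nat.cast_nonneg _) (by positivity)
        _ = _ := by ring
    · have h4 := h12 d β P F i j t K ht hK hij hi1 hc.symm hF hag (hsub F hF) hcF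
      rw [← hT, hadd] at h4
      have h5 : T ^ ((((1:ℕ) : ℝ) + ((2:ℕ) : ℝ)) / 2) = T ^ ((1:ℝ) + 1 / 2) := by norm_num
      rw [h5]
      refine le_trans ?_ (hX2 _)
      refine h4.trans ?_
      have h6 : 0 < T ^ ((1:ℝ) + 1 / 2) := by positivity
      gcongr
    · have h4 := h13 d β P F i j t K ht hK hij hi1 hc.symm hF hag (hsub F hF) hcF
      rw [← hT, hadd] at h4
      have h5 : T ^ ((((1:ℕ) : ℝ) + ((3:ℕ) : ℝ)) / 2) = T ^ ((3:ℝ) / 2 + 1 / 2) := by norm_num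
      rw [h5]
      refine le_trans ?_ (hX2 _)
      refine h4.trans ?_
      have h6 : 0 < T ^ ((3:ℝ) / 2 + 1 / 2) := by positivity
      gcongr
  refine ⟨hsingle, ?_⟩
  intro i hi j hj hij
  have hpos : ∀ j ∈ univ.image β, 1 ≤ (univ.filter (fun i => β i = j)).card := by
    intro j hj
    obtain ⟨l, _, hl⟩ := mem_image.mp hj
    exact card_pos.mpr ⟨l, mem_filter.mpr ⟨mem_univ _, hl⟩⟩
  by_cases hi1 : (univ.filter (fun l => β l = i)).card = 1
  · exact hone i hi j hj hij hi1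
  by_cases hj1 : (univ.filter (fun l => β l = j)).card = 1
  · have := hone j hj i hi hij.symm hj1
    rw [mul_comm, add_comm ((univ.filter (fun l => β l = j)).card : ℝ)] at this
    exact this
  · have h4 := hsingle i hi (by have := hpos i hi; omega)
    have h5 := hsingle j hj (by have := hpos j hj; omega)
    calc (bn β P i : ℝ) * bn β P j ≤ _ :=
          mul_le_mul h4 h5 (Nat.cast_nonneg _) (by positivity)
      _ = (C * K ^ 2 * E) ^ 2 * (T ^ (((univ.filter (fun l => β l = i)).card : ℝ) / 2) *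
          T ^ (((univ.filter (fun l => β l = j)).card : ℝ) / 2)) := by ring
      _ = _ := by
        rw [← Real.rpow_add hT0]
        congr 2
        ring

open scoped Classical in
/-- the final bound, for blocks of coordinates -/
theorem small_blocks (d : ℕ) (hd : 2 ≤ d) (ε : ℝ) (hε : 0 < ε) : ∃ c : ℝ, 0 < c ∧
    ∀ (β : Fin d → ℕ) (P : Finset (EuclideanSpace ℝ (Fin d))),
      (∀ j, (univ.filter (fun l => β l = j)).card ≤ 3) → 2 ≤ P.card →
      c * ((P.card : ℝ) / ∏ j ∈ univ.image β, (bn β P j : ℝ)) ^ 4 *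
        (P.card : ℝ) ^ (2 / (d : ℝ) - ε) ≤ ((P.offDiag.image (fun q => dist q.1 q.2)).card : ℝ) := by
  obtain ⟨η, hη, hlast⟩ := last_step d hd ε hε
  obtain ⟨C, hC, hb⟩ := blocks_bound η hη
  obtain ⟨c, hc, h⟩ := hlast C hC
  refine ⟨c, hc, ?_⟩
  intro β P hβ hP2
  have hP : P.Nonempty := card_pos.mp (by omega)
  obtain ⟨t, ht⟩ : ∃ t : ℕ, t = (P.offDiag.image (fun q => dist q.1 q.2)).card := ⟨_, rfl⟩
  have ht1 : 1 ≤ t := by
    rw [ht]
    apply card_pos.mpr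
    obtain ⟨a, ha, b, hb, hab⟩ := one_lt_card.mp (by omega : 1 < P.card)
    exact ⟨dist a b, mem_image.mpr ⟨(a, b), mem_offDiag.mpr ⟨ha, hb, hab⟩, rfl⟩⟩
  rw [← ht]
  have ht1' : (1:ℝ) ≤ t := by exact_mod_cast ht1
  have hn1 : (1:ℝ) ≤ P.card := by exact_mod_cast (by omega : 1 ≤ P.card)
  have hK := K_ge β P hP
  obtain ⟨h1, h2⟩ := hb d β P t ht1 hβ hP ht.ge
  have hX : 1 ≤ C * (MM β P / P.card) ^ 2 * (t:ℝ) ^ η := by
    have h3 : 1 ≤ (t:ℝ) ^ η := Real.one_le_rpow ht1' hη.le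
    have h4 : 1 ≤ (MM β P / P.card) ^ 2 := one_le_pow₀ hK
    have h5 : 1 ≤ C * (MM β P / P.card) ^ 2 := by nlinarith only [h4, hC]
    nlinarith only [h3, h5]
  have h3 := prod_blocks β (fun j => (bn β P j : ℝ)) (C * (MM β P / P.card) ^ 2 * (t:ℝ) ^ η) t
    hX ht1' (fun j => bn_pos β P hP j) hd h1 h2
  have hnM : (P.card : ℝ) ≤ MM β P := by
    rw [le_div_iff₀ (by linarith only [hn1])] at hK
    linarith only [hK]
  exact h P.card (MM β P) t hn1 hnM ht1' h3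

end Vale.Agent.P054P
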