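import Vale.Agent.P054.H25P.Core
import Vale.Agent.P054.H25P.Defs

/-! # P054.SmallBlocks: fibres over one block and over two blocks -/

set_option linter.all false
set_option autoImplicit false

open Finset Vale.Agent.P054I

namespace Vale.Agent.P054P

/-- squared distance in the block `j` -/
noncomputable def sb {d : ℕ} (β : Fin d → ℕ) (j : ℕ) (p q : EuclideanSpace ℝ (Fin d)) : ℝ :=
  ∑ l ∈ univ.filter (fun l => β l = j), (p l - q l) ^ 2

theorem dist_sq {d : ℕ} (p q : EuclideanSpace ℝ (Fin d)) :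
    dist p q ^ 2 = ∑ l, (p l - q l) ^ 2 := by
  rw [EuclideanSpace.dist_eq, Real.sq_sqrt (sum_nonneg (fun _ _ => sq_nonneg _))]
  refine sum_congr rfl (fun l _ => ?_)
  rw [Real.dist_eq, sq_abs]

theorem dist_sq_single {d : ℕ} (β : Fin d → ℕ) (j : ℕ) (p q : EuclideanSpace ℝ (Fin d))
    (h : ∀ i, β i ∉ ({j} : Finset ℕ) → p i = q i) : dist p q ^ 2 = sb β j p q := by
  rw [dist_sq, sb, sum_filter]
  refine sum_congr rfl (fun l _ => ?_)
  split_ifs with hl
  · rfl
  · rw [h l (by rwa [mem_singleton]), sub_self]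
    ring

theorem dist_sq_pair {d : ℕ} (β : Fin d → ℕ) (i j : ℕ) (hij : i ≠ j)
    (p q : EuclideanSpace ℝ (Fin d)) (h : ∀ l, β l ∉ ({i, j} : Finset ℕ) → p l = q l) :
    dist p q ^ 2 = sb β i p q + sb β j p q := by
  rw [dist_sq, sb, sb, sum_filter, sum_filter, ← sum_add_distrib]
  refine sum_congr rfl (fun l _ => ?_)
  by_cases h1 : β l = i
  · have h2 : β l ≠ j := fun h3 => hij (h1.symm.trans h3)
    rw [if_pos h1, if_neg h2, add_zero]
  · by_cases h2 : β l = j
    · rw [if_neg h1, if_pos h2, zero_add]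
    · rw [if_neg h1, if_neg h2, h l (by
        rw [mem_insert, mem_singleton]
        push Not
        exact ⟨h1, h2⟩), sub_self]
      ring

/-- coordinates of the block `j` as a point of `ℝ^k` -/
noncomputable def phi {d : ℕ} (β : Fin d → ℕ) (j k : ℕ)
    (hk : (univ.filter (fun l => β l = j)).card = k) (p : EuclideanSpace ℝ (Fin d)) :
    EuclideanSpace ℝ (Fin k) :=
  WithLp.toLp 2 (fun x => p ((Finset.equivFinOfCardEq hk).symm x : Fin d))

theorem dist_phi {d : ℕ} (β : Fin d → ℕ) (j k : ℕ)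
    (hk : (univ.filter (fun l => β l = j)).card = k) (p q : EuclideanSpace ℝ (Fin d)) :
    dist (phi β j k hk p) (phi β j k hk q) ^ 2 = sb β j p q := by
  rw [dist_sq, sb, ← Finset.sum_coe_sort (univ.filter (fun l => β l = j))
    (fun l => (p l - q l) ^ 2),
    ← Equiv.sum_comp (Finset.equivFinOfCardEq hk).symm
      (fun l : {l // l ∈ univ.filter (fun l => β l = j)} => (p l - q l) ^ 2)]
  rfl

theorem phi_eq {d : ℕ} (β : Fin d → ℕ) (j k : ℕ)
    (hk : (univ.filter (fun l => β l = j)).card = k) (p q : EuclideanSpace ℝ (Fin d))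
    (h : phi β j k hk p = phi β j k hk q) : blk β j p = blk β j q := by
  have h1 := dist_phi β j k hk p q
  rw [h, dist_self, sb, zero_pow two_ne_zero] at h1
  have h2 := (sum_eq_zero_iff_of_nonneg (fun _ _ => sq_nonneg _)).mp h1.symm
  funext ⟨i, hi⟩
  have h3 := h2 i (by rw [mem_filter]; exact ⟨mem_univ _, hi⟩)
  have h4 := pow_eq_zero_iff (two_ne_zero) |>.mp h3
  exact sub_eq_zero.mp h4

theorem phi_eq' {d : ℕ} (β : Fin d → ℕ) (j k : ℕ)
    (hk : (univ.filter (fun l => β l = j)).card = k) (p q : EuclideanSpace ℝ (Fin d))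
    (h : blk β j p = blk β j q) : phi β j k hk p = phi β j k hk q := by
  unfold phi
  congr 1
  funext x
  have h1 := ((Finset.equivFinOfCardEq hk).symm x).2
  rw [mem_filter] at h1
  exact congrFun h ⟨_, h1.2⟩

theorem card_image_le_of {α γ δ : Type} [DecidableEq γ] [DecidableEq δ] (P : Finset α)
    (f : α → γ) (g : α → δ)
    (h : ∀ p ∈ P, ∀ q ∈ P, g p = g q → f p = f q) : (P.image f).card ≤ (P.image g).card := by
  rcases P.eq_empty_or_nonempty with hP | ⟨p0, _⟩
  · subst hP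
    rw [image_empty, image_empty, card_empty, card_empty]
  have : Nonempty α := ⟨p0⟩
  have hch : ∀ y ∈ P.image f, ∃ p : α, p ∈ P ∧ f p = y := fun y hy => by
    obtain ⟨p, hp, h⟩ := mem_image.mp hy
    exact ⟨p, hp, h⟩
  choose! c hc1 hc2 using hch
  apply card_le_card_of_injOn (fun y => g (c y))
  · intro y hy
    exact mem_image_of_mem g (hc1 y hy)
  · intro y hy z hz hyz
    have := h _ (hc1 y hy) _ (hc1 z hz) hyz
    rw [hc2 y hy, hc2 z hz] at this
    exact this

open scoped Classical in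
/-- the exponent for a set that is isometric to a set of `ℝ^k` -/
theorem iso_bound (k : ℕ) (α : ℝ) (hSex : Sex k (DC k) α) (ε : ℝ) (hε : 0 < ε) :
    ∃ C : ℝ, 0 < C ∧ ∀ (d : ℕ) (F : Finset (EuclideanSpace ℝ (Fin d)))
      (ψ : EuclideanSpace ℝ (Fin d) → EuclideanSpace ℝ (Fin k)) (t : ℕ), 1 ≤ t →
      (∀ p ∈ F, ∀ q ∈ F, dist (ψ p) (ψ q) = dist p q) →
      (F.offDiag.image (fun q => dist q.1 q.2)).card ≤ t →
      (F.card : ℝ) ≤ C * (t:ℝ) ^ (α + ε) := by
  obtain ⟨C, hC, h⟩ := hSex ε hε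
  refine ⟨C, hC, ?_⟩
  intro d F ψ t ht hψ hF
  have hinj : Set.InjOn ψ (F : Set (EuclideanSpace ℝ (Fin d))) := by
    intro p hp q hq hpq
    have h1 := hψ p hp q hq
    rw [hpq, dist_self] at h1
    exact dist_eq_zero.mp h1.symm
  rw [← card_image_of_injOn hinj]
  apply h t ht
  unfold DC
  refine le_trans (card_le_card ?_) hF
  intro r hr
  rw [mem_image] at hr ⊢
  obtain ⟨⟨a, b⟩, hab, rfl⟩ := hr
  rw [mem_offDiag] at hab
  obtain ⟨ha, hb, hne⟩ := hab
  obtain ⟨p, hp, rfl⟩ := mem_image.mp ha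
  obtain ⟨q, hq, rfl⟩ := mem_image.mp hb
  refine ⟨(p, q), ?_, (hψ p hp q hq).symm⟩
  rw [mem_offDiag]
  exact ⟨hp, hq, fun h2 => hne (by simp only at h2 ⊢; rw [h2])⟩

theorem dist_eq_of_sq {a b : ℝ} (ha : 0 ≤ a) (hb : 0 ≤ b) (h : a ^ 2 = b ^ 2) : a = b :=
  (pow_left_inj₀ ha hb two_ne_zero).mp h

/-- a block with one coordinate -/
theorem sb_one {d : ℕ} (β : Fin d → ℕ) (i : ℕ) (i0 : Fin d)
    (h : univ.filter (fun l => β l = i) = {i0}) (p q : EuclideanSpace ℝ (Fin d)) :
    sb β i p q = (p i0 - q i0) ^ 2 := by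
  rw [sb, h, sum_singleton]

theorem blk_one {d : ℕ} (β : Fin d → ℕ) (i : ℕ) (i0 : Fin d)
    (h : univ.filter (fun l => β l = i) = {i0}) (p q : EuclideanSpace ℝ (Fin d))
    (hpq : p i0 = q i0) : blk β i p = blk β i q := by
  funext ⟨l, hl⟩
  have h1 : l ∈ univ.filter (fun l => β l = i) := by
    rw [mem_filter]; exact ⟨mem_univ _, hl⟩
  rw [h, mem_singleton] at h1
  subst h1
  exact hpq

open scoped Classical in
/-- two blocks of one coordinate each -/
theorem pair11 (ε : ℝ) (hε : 0 < ε) :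
    ∃ C : ℝ, 0 < C ∧ ∀ (d : ℕ) (β : Fin d → ℕ) (F : Finset (EuclideanSpace ℝ (Fin d)))
      (i j : ℕ) (t : ℕ), 1 ≤ t → i ≠ j →
      (univ.filter (fun l => β l = i)).card = 1 → (univ.filter (fun l => β l = j)).card = 1 →
      (∀ p ∈ F, ∀ q ∈ F, ∀ l, β l ∉ ({i, j} : Finset ℕ) → p l = q l) →
      (F.offDiag.image (fun q => dist q.1 q.2)).card ≤ t →
      (F.card : ℝ) ≤ C * (t:ℝ) ^ (1 + ε) := by
  obtain ⟨C, hC, h⟩ := iso_bound 2 1 sex_dc2 ε hε
  refine ⟨C, hC, ?_⟩
  intro d β F i j t ht hij hi hj hF hFt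
  obtain ⟨i0, hi0⟩ := card_eq_one.mp hi
  obtain ⟨j0, hj0⟩ := card_eq_one.mp hj
  apply h d F (fun p => WithLp.toLp 2 ![p i0, p j0]) t ht _ hFt
  intro p hp q hq
  apply dist_eq_of_sq dist_nonneg dist_nonneg
  rw [dist_sq_pair β i j hij p q (hF p hp q hq), sb_one β i i0 hi0, sb_one β j j0 hj0, dist_sq,
    Fin.sum_univ_two]
  rfl

open scoped Classical in
/-- one block of `k` coordinates -/
theorem single (k : ℕ) (α : ℝ) (hSex : Sex k (DC k) α) (ε : ℝ) (hε : 0 < ε) :
    ∃ C : ℝ, 0 < C ∧ ∀ (d : ℕ) (β : Fin d → ℕ) (F : Finset (EuclideanSpace ℝ (Fin d)))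
      (j : ℕ) (t : ℕ), 1 ≤ t → (univ.filter (fun l => β l = j)).card = k →
      (∀ p ∈ F, ∀ q ∈ F, ∀ l, β l ∉ ({j} : Finset ℕ) → p l = q l) →
      (F.offDiag.image (fun q => dist q.1 q.2)).card ≤ t →
      (F.card : ℝ) ≤ C * (t:ℝ) ^ (α + ε) := by
  obtain ⟨C, hC, h⟩ := iso_bound k α hSex ε hε
  refine ⟨C, hC, ?_⟩
  intro d β F j t ht hk hF hFt
  apply h d F (phi β j k hk) t ht _ hFt
  intro p hp q hq
  apply dist_eq_of_sq dist_nonneg dist_nonneg
  rw [dist_phi, dist_sq_single β j p q (hF p hp q hq)]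

open scoped Classical in
/-- a block of one coordinate and a block of `k` coordinates -/
theorem pair1k (k : ℕ) (α : ℝ) (hα : 1 ≤ α) (hSex : Sex k (DC k) α) (ε : ℝ) (hε : 0 < ε) :
    ∃ C : ℝ, 0 < C ∧ ∀ (d : ℕ) (β : Fin d → ℕ) (P F : Finset (EuclideanSpace ℝ (Fin d)))
      (i j : ℕ) (t : ℕ) (K : ℝ), 1 ≤ t → 1 ≤ K → i ≠ j →
      (univ.filter (fun l => β l = i)).card = 1 → (univ.filter (fun l => β l = j)).card = k →
      F ⊆ P → (∀ p ∈ F, ∀ q ∈ F, ∀ l, β l ∉ ({i, j} : Finset ℕ) → p l = q l) →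
      (F.offDiag.image (fun q => dist q.1 q.2)).card ≤ t →
      (bn β P i : ℝ) * bn β P j ≤ K * F.card →
      (bn β P i : ℝ) * bn β P j ≤ C * K ^ 4 * (t:ℝ) ^ (α + 1 / 2 + ε) := by
  obtain ⟨C, hC, h⟩ := pair_bound k α hα hSex ε hε
  refine ⟨C, hC, ?_⟩
  intro d β P F i j t K ht hK hij hi hk hFP hF hFt hcard
  obtain ⟨i0, hi0⟩ := card_eq_one.mp hi
  have hA : (P.image (fun p : EuclideanSpace ℝ (Fin d) => p i0)).card = bn β P i := by
    unfold bn
    apply le_antisymm
    · apply card_image_le_of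
      intro p _ q _ hpq
      have h1 : i0 ∈ univ.filter (fun l => β l = i) := by rw [hi0]; exact mem_singleton_self _
      rw [mem_filter] at h1
      exact congrFun hpq ⟨i0, h1.2⟩
    · apply card_image_le_of
      intro p _ q _ hpq
      exact blk_one β i i0 hi0 p q hpq
  have hB : (P.image (phi β j k hk)).card = bn β P j := by
    unfold bn
    apply le_antisymm
    · apply card_image_le_of
      intro p _ q _ hpq
      exact phi_eq' β j k hk p q hpq
    · apply card_image_le_of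
      intro p _ q _ hpq
      exact phi_eq β j k hk p q hpq
  have hd : ∀ p ∈ F, ∀ q ∈ F, (p i0 - q i0) ^ 2 + dist (phi β j k hk p) (phi β j k hk q) ^ 2 =
      dist p q ^ 2 := by
    intro p hp q hq
    rw [dist_sq_pair β i j hij p q (hF p hp q hq), sb_one β i i0 hi0, dist_phi]
  have hinj : Set.InjOn (fun p : EuclideanSpace ℝ (Fin d) => (p i0, phi β j k hk p))
      (F : Set (EuclideanSpace ℝ (Fin d))) := by
    intro p hp q hq hpq
    simp only [Prod.mk.injEq] at hpq
    have h1 := hd p hp q hq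
    rw [hpq.1, hpq.2, dist_self, sub_self] at h1
    have h2 : dist p q ^ 2 = 0 := by rw [← h1]; ring
    exact dist_eq_zero.mp (pow_eq_zero_iff (two_ne_zero) |>.mp h2)
  have h1 := h t K (P.image (fun p : EuclideanSpace ℝ (Fin d) => p i0))
    (P.image (phi β j k hk))
    (F.image (fun p : EuclideanSpace ℝ (Fin d) => (p i0, phi β j k hk p))) ht hK
    (by
      intro z hz
      obtain ⟨p, hp, rfl⟩ := mem_image.mp hz
      exact mem_product.mpr ⟨mem_image_of_mem _ (hFP hp), mem_image_of_mem _ (hFP hp)⟩)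
    (by
      rw [hA, hB, card_image_of_injOn hinj]
      exact hcard)
    (by
      refine le_trans (card_le_card
        (t := insert 0 ((F.offDiag.image (fun q => dist q.1 q.2)).image (fun r => r ^ 2))) ?_) ?_
      · intro r hr
        rw [mem_image] at hr
        obtain ⟨⟨z, z'⟩, hz, rfl⟩ := hr
        obtain ⟨h2, h3⟩ := mem_product.mp hz
        obtain ⟨p, hp, rfl⟩ := mem_image.mp h2
        obtain ⟨q, hq, rfl⟩ := mem_image.mp h3
        simp only
        rw [hd p hp q hq, mem_insert]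
        by_cases hpq : p = q
        · left
          rw [hpq, dist_self]
          ring
        · right
          rw [mem_image]
          exact ⟨dist p q, mem_image.mpr ⟨(p, q), mem_offDiag.mpr ⟨hp, hq, hpq⟩, rfl⟩, rfl⟩
      · refine (card_insert_le _ _).trans ?_
        have := card_image_le (s := F.offDiag.image (fun q => dist q.1 q.2))
          (f := fun r : ℝ => r ^ 2)
        omega)
  rw [hA, hB] at h1
  exact h1

end Vale.Agent.P054P
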